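import Vale.Agent.P022.H239.L3.Theta
import Vale.Agent.P022.H218.L3.Amb

/-!
# P022-L3, function field, explicit half: the forms `X = a(τ)`, `Y = a(2τ)` of weight one on `Γ₁(6)`
-/

open UpperHalfPlane hiding I
open Matrix CongruenceSubgroup Complex Filter ConjAct Pointwise
open scoped MatrixGroups ModularForm Manifold Real

noncomputable section

namespace Vale.Agent.P022.H494.L3

open Vale.Agent.P022 H218.L3

open Function.Periodic (qParam)

/-- the theta series of `x² + x y + y²` as a modular form of level three -/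
def θ : MF 3 1 := H239.L3.exists_theta.choose

theorem θ_sum (τ : ℍ) :
    HasSum (fun n : ℕ => (H239.L3.cc n : ℂ) * cexp (2 * π * I * n * (τ : ℂ))) (θ τ) :=
  H239.L3.exists_theta.choose_spec.1 τ

theorem θ_law (γ : SL(2, ℤ)) (τ : ℍ) (h : (3 : ℤ) ∣ γ 1 0) :
    θ (γ • τ) = jacobiSym (γ 1 1) 3 * ((γ 1 0 : ℂ) * (τ : ℂ) + (γ 1 1 : ℂ)) * θ τ :=
  H239.L3.exists_theta.choose_spec.2.2.1 γ τ h

/-- `X = a(τ)` -/
def X (τ : ℍ) : ℂ := θ τ

/-- the matrix `diag(2, 1)` -/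
def dil : GL (Fin 2) ℝ :=
  GeneralLinearGroup.mkOfDetNeZero !![2, 0; 0, 1] (by simp [Matrix.det_fin_two])

theorem dil_val : (dil : Matrix (Fin 2) (Fin 2) ℝ) = !![2, 0; 0, 1] := rfl

/-- `2τ` -/
def dbl (τ : ℍ) : ℍ := ⟨2 * (τ : ℂ), by
  have := τ.im_pos
  simp
  exact this⟩

/-- `Y = a(2τ)` -/
def Y (τ : ℍ) : ℂ := θ (dbl τ)

theorem dil_smul (τ : ℍ) : dil • τ = dbl τ := by
  ext
  rw [UpperHalfPlane.coe_smul_of_det_pos]
  · simp [num, denom, dil_val, dbl]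
  · simp [dil_val, Matrix.det_fin_two]

theorem slash_dil : (θ : ℍ → ℂ) ∣[(1 : ℤ)] dil = Y := by
  funext τ
  rw [ModularForm.slash_apply, dil_smul]
  simp [denom, dil_val, Y, σ, Matrix.det_fin_two]


theorem mapGL_app (ε : SL(2, ℤ)) (i j : Fin 2) :
    ((Matrix.SpecialLinearGroup.mapGL ℝ ε : GL (Fin 2) ℝ) : Matrix (Fin 2) (Fin 2) ℝ) i j =
      ((ε i j : ℤ) : ℝ) := by
  simp [Matrix.SpecialLinearGroup.mapGL_coe_matrix]

theorem gam6_le : Gam 6 ≤ toConjAct dil⁻¹ • Gam 3 := by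
  rintro x ⟨γ, hγ, rfl⟩
  have hγ' : γ ∈ Gamma1 6 := hγ
  rw [Gamma1_mem] at hγ'
  obtain ⟨h1, h2, h3⟩ := hγ'
  have hc6 : (6 : ℤ) ∣ γ 1 0 := (ZMod.intCast_zmod_eq_zero_iff_dvd _ 6).1 h3
  obtain ⟨c, hc⟩ := hc6
  have hdet : γ 0 0 * γ 1 1 - γ 0 1 * γ 1 0 = 1 := by
    have := γ.det_coe
    rwa [Matrix.det_fin_two] at this
  rw [Subgroup.mem_pointwise_smul_iff_inv_smul_mem, ← toConjAct_inv, inv_inv, toConjAct_smul]
  let δ : SL(2, ℤ) := ⟨!![γ 0 0, 2 * γ 0 1; 3 * c, γ 1 1], by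
    rw [Matrix.det_fin_two]
    simp
    linear_combination hdet + γ 0 1 * hc⟩
  refine ⟨δ, ?_, ?_⟩
  · change δ ∈ Gamma1 3
    rw [Gamma1_mem]
    have e1 : ((γ 0 0 : ℤ) : ZMod 3) = 1 := by
      have := congrArg (ZMod.castHom (show 3 ∣ 6 by norm_num) (ZMod 3)) h1
      simpa using this
    have e2 : ((γ 1 1 : ℤ) : ZMod 3) = 1 := by
      have := congrArg (ZMod.castHom (show 3 ∣ 6 by norm_num) (ZMod 3)) h2
      simpa using this
    refine ⟨by simpa [δ] using e1, by simpa [δ] using e2, ?_⟩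
    have : δ 1 0 = 3 * c := rfl
    rw [this]
    push_cast
    rw [show (3 : ZMod 3) = 0 by decide, zero_mul]
  · rw [eq_mul_inv_iff_mul_eq]
    have e1 : ((Matrix.SpecialLinearGroup.mapGL ℝ δ : GL (Fin 2) ℝ) : Matrix (Fin 2) (Fin 2) ℝ) =
        !![(γ 0 0 : ℝ), 2 * (γ 0 1 : ℝ); 3 * (c : ℝ), (γ 1 1 : ℝ)] := by
      ext i j
      rw [mapGL_app]
      fin_cases i <;> fin_cases j <;> simp [δ]
    have e2 : ((Matrix.SpecialLinearGroup.mapGL ℝ γ : GL (Fin 2) ℝ) : Matrix (Fin 2) (Fin 2) ℝ) =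
        !![(γ 0 0 : ℝ), (γ 0 1 : ℝ); 6 * (c : ℝ), (γ 1 1 : ℝ)] := by
      ext i j
      fin_cases i <;> fin_cases j <;> simp [Matrix.SpecialLinearGroup.mapGL_coe_matrix, hc]
    apply Units.ext
    rw [Units.val_mul, Units.val_mul, e1, e2, dil_val]
    ext i j
    fin_cases i <;> fin_cases j <;> simp [Matrix.mul_apply, Fin.sum_univ_two] <;> ring

/-- `Y` as a modular form -/
def Yform : MF 6 1 where
  toFun := ModularForm.translate θ dil
  slash_action_eq' γ hγ := (ModularForm.translate θ dil).slash_action_eq' γ (gam6_le hγ)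
  holo' := (ModularForm.translate θ dil).holo'
  bdd_at_cusps' hc := (ModularForm.translate θ dil).bdd_at_cusps' (hc.mono gam6_le)

theorem Yform_coe : (Yform : ℍ → ℂ) = Y := slash_dil

theorem gam63 : Gam 6 ≤ Gam 3 := by
  refine Subgroup.map_mono ?_
  intro γ hγ
  rw [Gamma1_mem] at hγ ⊢
  obtain ⟨h1, h2, h3⟩ := hγ
  have e : (3 : ℕ) ∣ 6 := by norm_num
  refine ⟨?_, ?_, ?_⟩
  · have := congrArg (ZMod.castHom e (ZMod 3)) h1
    simpa using this
  · have := congrArg (ZMod.castHom e (ZMod 3)) h2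
    simpa using this
  · have := congrArg (ZMod.castHom e (ZMod 3)) h3
    simpa using this

/-- `X` as a modular form -/
def Xform : MF 6 1 where
  toFun := X
  slash_action_eq' γ hγ := θ.slash_action_eq' γ (gam63 hγ)
  holo' := θ.holo'
  bdd_at_cusps' hc := θ.bdd_at_cusps' (hc.mono gam63)

theorem isMF_of {k : ℕ} (f : MF 6 k) : IsMF (Gamma1 6) k f where
  hol := f.holo'
  slash γ hγ := f.slash_action_eq' _ ⟨γ, hγ, rfl⟩
  bdd γ := ModularFormClass.bdd_at_infty_slash f γ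

theorem isMF_X : IsMF (Gamma1 6) 1 X := isMF_of Xform

theorem isMF_Y : IsMF (Gamma1 6) 1 Y := by
  have h := isMF_of Yform
  rw [Yform_coe] at h
  exact h

end Vale.Agent.P022.H494.L3
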