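import Vale.Agent.P022.H494.L3.Sturm6
import Vale.Agent.P022.H494.L3.XY

/-!
# P022-L3, function field, explicit half: `E₄`, `E₆`, `Δ` as polynomials in `X`, `Y`
-/

open UpperHalfPlane hiding I
open Matrix CongruenceSubgroup Complex Filter
open scoped MatrixGroups ModularForm Manifold Real

noncomputable section

namespace Vale.Agent.P022.H494.L3

open Vale.Agent.P022 H218.L3

open Function.Periodic (qParam)

/-! ### `q`-expansions as a calculus -/

/-- `f` has the `q`-expansion `P` -/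
def QE (f : ℍ → ℂ) (P : PowerSeries ℂ) : Prop :=
  ∀ τ : ℍ, HasSum (fun n : ℕ => P.coeff n • qParam 1 τ ^ n) (f τ)

theorem QE.mul {f g : ℍ → ℂ} {P Q : PowerSeries ℂ} (hf : QE f P) (hg : QE g Q) :
    QE (f * g) (P * Q) := by
  intro τ
  have s1 := (hf τ).summable.norm
  have s2 := (hg τ).summable.norm
  have h3 := (summable_norm_sum_mul_antidiagonal_of_summable_norm s1 s2).of_norm.hasSum
  rw [← tsum_mul_tsum_eq_tsum_sum_antidiagonal_of_summable_norm s1 s2, (hf τ).tsum_eq,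
    (hg τ).tsum_eq] at h3
  rw [Pi.mul_apply]
  convert! h3 using 2 with n
  rw [PowerSeries.coeff_mul, Finset.sum_smul]
  refine Finset.sum_congr rfl fun p hp => ?_
  rw [Finset.HasAntidiagonal.mem_antidiagonal] at hp
  rw [← hp, pow_add]
  simp only [smul_eq_mul]
  ring

theorem QE.add {f g : ℍ → ℂ} {P Q : PowerSeries ℂ} (hf : QE f P) (hg : QE g Q) :
    QE (f + g) (P + Q) := by
  intro τ
  have h := (hf τ).add (hg τ)
  convert! h using 2 with n
  rw [map_add, add_smul]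

theorem QE.smul {f : ℍ → ℂ} {P : PowerSeries ℂ} (c : ℂ) (hf : QE f P) : QE (c • f) (c • P) := by
  intro τ
  have h := (hf τ).const_smul c
  convert! h using 2 with n
  rw [PowerSeries.coeff_smul, smul_eq_mul, smul_eq_mul, smul_eq_mul, smul_eq_mul, mul_assoc]

theorem QE.neg {f : ℍ → ℂ} {P : PowerSeries ℂ} (hf : QE f P) : QE (-f) (-P) := by
  have h := hf.smul (-1)
  rwa [neg_one_smul, neg_one_smul] at h

theorem QE.sub {f g : ℍ → ℂ} {P Q : PowerSeries ℂ} (hf : QE f P) (hg : QE g Q) :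
    QE (f - g) (P - Q) := by
  rw [sub_eq_add_neg, sub_eq_add_neg]
  exact hf.add hg.neg

/-! ### Sturm in the letters `IsMF` -/

/-- `IsMF` to `ModularForm` -/
def toMF {k : ℕ} {f : ℍ → ℂ} (h : IsMF (Gamma1 6) k f) : MF 6 k where
  toFun := f
  slash_action_eq' := by
    rintro _ ⟨γ, hγ, rfl⟩
    exact h.slash γ hγ
  holo' := h.hol
  bdd_at_cusps' {c} hc := by
    have h1 : IsCusp c 𝒮ℒ := by
      rwa [Subgroup.IsArithmetic.isCusp_iff_isCusp_SL2Z] at hc
    rw [OnePoint.isBoundedAt_iff_forall_SL2Z h1]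
    intro γ _
    exact h.bdd γ

/-- **Sturm for `Γ₁(6)`** in the letters `IsMF` -/
theorem eq_zero_of {k : ℕ} {f : ℍ → ℂ} (h : IsMF (Gamma1 6) k f) {P : PowerSeries ℂ}
    (hP : QE f P) (h0 : ∀ n ≤ k, P.coeff n = 0) : f = 0 := by
  have h1 : (toMF h : MF 6 k) = 0 := sturm6 (toMF h) (c := fun n => P.coeff n) hP h0
  have h2 : ((toMF h : MF 6 k) : ℍ → ℂ) = f := rfl
  rw [← h2, h1]
  rfl

/-! ### the coefficients of `X` and `Y` -/

/-- the box `[-2, 2]²` -/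
def box : Finset (ℤ × ℤ) := Finset.Icc (-2) 2 ×ˢ Finset.Icc (-2) 2

theorem cc_eq (n : ℕ) (hn : n < 7) :
    H239.L3.cc n = (box.filter fun v => H239.L3.ph v = n).card := by
  unfold H239.L3.cc
  refine Fintype.card_of_subtype _ fun v => ?_
  rw [Finset.mem_filter]
  refine ⟨fun h => h.2, fun h => ⟨?_, h⟩⟩
  obtain ⟨x, y⟩ := v
  have h1 : Qf 1 1 1 (x, y) = n := by
    rw [← H239.L3.ph_cast]
    exact congrArg _ h
  unfold Qf at h1
  simp only at h1
  have hx : x ^ 2 ≤ 8 := by nlinarith [sq_nonneg (x + 2 * y)]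
  have hy : y ^ 2 ≤ 8 := by nlinarith [sq_nonneg (2 * x + y)]
  have key : ∀ z : ℤ, z ^ 2 ≤ 8 → -2 ≤ z ∧ z ≤ 2 := by
    intro z hz
    constructor <;> nlinarith
  rw [box, Finset.mem_product, Finset.mem_Icc, Finset.mem_Icc]
  exact ⟨key x hx, key y hy⟩


/-- the `q`-expansion of `X` -/
def PX : PowerSeries ℂ := PowerSeries.mk fun n => (H239.L3.cc n : ℂ)

/-- the `q`-expansion of `Y` -/
def PY : PowerSeries ℂ := PowerSeries.mk fun n => if 2 ∣ n then (H239.L3.cc (n / 2) : ℂ) else 0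

theorem qpow (τ : ℍ) (n : ℕ) : qParam 1 (τ : ℂ) ^ n = cexp (2 * π * I * n * (τ : ℂ)) := by
  rw [Function.Periodic.qParam, ← Complex.exp_nat_mul]
  congr 1
  push_cast
  ring

theorem QE_X : QE X PX := by
  intro τ
  have h := θ_sum τ
  convert! h using 2 with n
  rw [PX, PowerSeries.coeff_mk, smul_eq_mul, qpow]

theorem QE_Y : QE Y PY := by
  intro τ
  have h := θ_sum (dbl τ)
  have inj : Function.Injective (fun m : ℕ => 2 * m) := fun a b h =>
    Nat.eq_of_mul_eq_mul_left (by norm_num) h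
  refine (inj.hasSum_iff ?_).1 ?_
  · intro x hx
    rw [PY, PowerSeries.coeff_mk, if_neg, zero_smul]
    rintro ⟨y, rfl⟩
    exact hx ⟨y, rfl⟩
  · change HasSum _ (θ (dbl τ))
    convert! h using 2 with m
    simp only [Function.comp_apply, PY, PowerSeries.coeff_mk, dvd_mul_right, if_true, smul_eq_mul]
    rw [Nat.mul_div_cancel_left _ (by norm_num : 0 < 2), qpow]
    congr 2
    have : ((dbl τ : ℍ) : ℂ) = 2 * (τ : ℂ) := rfl
    rw [this]
    push_cast
    ring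

/-- the first seven coefficients -/
def IsT (a : List ℤ) (P : PowerSeries ℂ) : Prop := ∀ n < 7, P.coeff n = ((a.getD n 0 : ℤ) : ℂ)

theorem IsT.mul {a b c : List ℤ} {P Q : PowerSeries ℂ} (hP : IsT a P) (hQ : IsT b Q)
    (h : ∀ n < 7, c.getD n 0 = ∑ i ∈ Finset.range (n + 1), a.getD i 0 * b.getD (n - i) 0) :
    IsT c (P * Q) := by
  intro n hn
  rw [PowerSeries.coeff_mul, h n hn, Finset.Nat.sum_antidiagonal_eq_sum_range_succ
    (f := fun i j => P.coeff i * Q.coeff j)]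
  push_cast
  refine Finset.sum_congr rfl fun i hi => ?_
  rw [Finset.mem_range] at hi
  rw [hP i (by omega), hQ (n - i) (by omega)]

theorem isT_X : IsT [1, 6, 0, 6, 6, 0, 0] PX := by
  intro n hn
  rw [PX, PowerSeries.coeff_mk, cc_eq n hn]
  have h : ∀ n < 7, (((box.filter fun v => H239.L3.ph v = n).card : ℕ) : ℤ) =
      [1, 6, 0, 6, 6, 0, 0].getD n 0 := by decide
  rw [← h n hn]
  norm_cast

theorem isT_Y : IsT [1, 0, 6, 0, 0, 0, 6] PY := by
  intro n hn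
  rw [PY, PowerSeries.coeff_mk]
  have h := isT_X
  unfold IsT PX at h
  simp only [PowerSeries.coeff_mk] at h
  interval_cases n <;> simp [h]

theorem isT_X2 : IsT [1, 12, 36, 12, 84, 72, 36] (PX * PX) :=
  isT_X.mul isT_X (by decide)

theorem isT_X3 : IsT [1, 18, 108, 234, 234, 864, 756] ((PX * PX) * PX) :=
  isT_X2.mul isT_X (by decide)

theorem isT_X4 : IsT [1, 24, 216, 888, 1752, 3024, 7992] (((PX * PX) * PX) * PX) :=
  isT_X3.mul isT_X (by decide)

theorem isT_Y2 : IsT [1, 0, 12, 0, 36, 0, 12] (PY * PY) :=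
  isT_Y.mul isT_Y (by decide)

theorem isT_Y3 : IsT [1, 0, 18, 0, 108, 0, 234] ((PY * PY) * PY) :=
  isT_Y2.mul isT_Y (by decide)

theorem isT_X3Y : IsT [1, 18, 114, 342, 882, 2268, 2166] (((PX * PX) * PX) * PY) :=
  isT_X3.mul isT_Y (by decide)

theorem isT_XY3 : IsT [1, 6, 18, 114, 114, 756, 342] (PX * ((PY * PY) * PY)) :=
  isT_X.mul isT_Y3 (by decide)

theorem isT_X5 : IsT [1, 30, 360, 2190, 7230, 14976, 32760] ((((PX * PX) * PX) * PX) * PX) :=
  isT_X4.mul isT_X (by decide)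

theorem isT_X6 : IsT [1, 36, 540, 4356, 20556, 60696, 137916] (((((PX * PX) * PX) * PX) * PX) * PX) :=
  isT_X5.mul isT_X (by decide)

theorem isT_X5Y : IsT [1, 30, 366, 2370, 9390, 28116, 76146] (((((PX * PX) * PX) * PX) * PX) * PY) :=
  isT_X5.mul isT_Y (by decide)

theorem isT_X4Y2 : IsT [1, 24, 228, 1176, 4380, 14544, 36804] ((((PX * PX) * PX) * PX) * (PY * PY)) :=
  isT_X4.mul isT_Y2 (by decide)

theorem isT_X3Y3 : IsT [1, 18, 126, 558, 2286, 7020, 16866] (((PX * PX) * PX) * ((PY * PY) * PY)) :=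
  isT_X3.mul isT_Y3 (by decide)

theorem isT_Y4 : IsT [1, 0, 24, 0, 216, 0, 888] (((PY * PY) * PY) * PY) :=
  isT_Y3.mul isT_Y (by decide)

theorem isT_X2Y4 : IsT [1, 12, 60, 300, 1164, 2952, 10716] ((PX * PX) * (((PY * PY) * PY) * PY)) :=
  isT_X2.mul isT_Y4 (by decide)

theorem isT_Y6 : IsT [1, 0, 36, 0, 540, 0, 4356] (((PY * PY) * PY) * ((PY * PY) * PY)) :=
  isT_Y3.mul isT_Y3 (by decide)


/-! ### the identities -/

theorem isMF_E4 : IsMF (Gamma1 6) 4 (ModularForm.E₄ : ℍ → ℂ) where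
  hol := ModularForm.E₄.holo'
  slash γ _ := ModularForm.E₄.slash_action_eq' _ ⟨γ, rfl⟩
  bdd γ := ModularFormClass.bdd_at_infty_slash ModularForm.E₄ γ

theorem isMF_E6 : IsMF (Gamma1 6) 6 (ModularForm.E₆ : ℍ → ℂ) where
  hol := ModularForm.E₆.holo'
  slash γ _ := ModularForm.E₆.slash_action_eq' _ ⟨γ, rfl⟩
  bdd γ := ModularFormClass.bdd_at_infty_slash ModularForm.E₆ γ

theorem QE_E4 : QE (ModularForm.E₄ : ℍ → ℂ) (qExpansion 1 ModularForm.E₄) := fun τ =>
  ModularForm.hasSum_qExpansion (f := ModularForm.E₄) one_pos one_mem_strictPeriods_SL τ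

theorem QE_E6 : QE (ModularForm.E₆ : ℍ → ℂ) (qExpansion 1 ModularForm.E₆) := fun τ =>
  ModularForm.hasSum_qExpansion (f := ModularForm.E₆) one_pos one_mem_strictPeriods_SL τ

theorem isT_E4 : IsT [1, 240, 2160, 6720, 17520, 30240, 60480] (qExpansion 1 ModularForm.E₄) := by
  intro n hn
  rw [EisensteinSeries.E_qExpansion_coeff _ ⟨2, rfl⟩, show bernoulli 4 = -1 / 30 by decide +kernel]
  interval_cases n <;> norm_num [ArithmeticFunction.sigma_apply,
    show Nat.divisors 4 = {1, 2, 4} by decide, show Nat.divisors 6 = {1, 2, 3, 6} by decide]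

theorem isT_E6 : IsT [1, -504, -16632, -122976, -532728, -1575504, -4058208]
    (qExpansion 1 ModularForm.E₆) := by
  intro n hn
  rw [EisensteinSeries.E_qExpansion_coeff _ ⟨3, rfl⟩, show bernoulli 6 = 1 / 42 by decide +kernel]
  interval_cases n <;> norm_num [ArithmeticFunction.sigma_apply,
    show Nat.divisors 4 = {1, 2, 4} by decide, show Nat.divisors 6 = {1, 2, 3, 6} by decide]


theorem cast_w {a b : ℤ} {f : ℍ → ℂ} (h : IsMF (Gamma1 6) a f) (e : a = b) :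
    IsMF (Gamma1 6) b f := e ▸ h

/-- **`E₄ = 5X⁴ + 12X³Y − 16XY³`** -/
theorem id4 (τ : ℍ) : ModularForm.E₄ τ = 5 * X τ ^ 4 + 12 * X τ ^ 3 * Y τ - 16 * X τ * Y τ ^ 3 := by
  have hX := isMF_X
  have hY := isMF_Y
  have h1 : IsMF (Gamma1 6) ((4 : ℕ) : ℤ) ((ModularForm.E₄ : ℍ → ℂ) - (5 : ℂ) • (((X * X) * X) * X)
      - (12 : ℂ) • (((X * X) * X) * Y) + (16 : ℂ) • (X * ((Y * Y) * Y))) := by
    refine ((isMF_E4.sub ?_).sub ?_).add ?_
    · exact cast_w ((((hX.mul hX).mul hX).mul hX).smul 5) (by norm_num)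
    · exact cast_w ((((hX.mul hX).mul hX).mul hY).smul 12) (by norm_num)
    · exact cast_w ((hX.mul ((hY.mul hY).mul hY)).smul 16) (by norm_num)
  have h2 := ((QE_E4.sub ((((QE_X.mul QE_X).mul QE_X).mul QE_X).smul 5)).sub
    ((((QE_X.mul QE_X).mul QE_X).mul QE_Y).smul 12)).add
    ((QE_X.mul ((QE_Y.mul QE_Y).mul QE_Y)).smul 16)
  have h3 := eq_zero_of h1 h2 (fun n hn => by
    have hn7 : n < 7 := by omega
    rw [map_add, map_sub, map_sub, PowerSeries.coeff_smul, PowerSeries.coeff_smul,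
      PowerSeries.coeff_smul, isT_E4 n hn7, isT_X4 n hn7, isT_X3Y n hn7, isT_XY3 n hn7]
    interval_cases n <;> norm_num)
  have h4 := congrFun h3 τ
  simp only [Pi.add_apply, Pi.sub_apply, Pi.smul_apply, Pi.mul_apply, smul_eq_mul,
    Pi.zero_apply] at h4
  linear_combination h4

/-- **`E₆ = −11X⁶ − 42X⁵Y − 18X⁴Y² + 56X³Y³ + 48X²Y⁴ − 32Y⁶`** -/
theorem id6 (τ : ℍ) : ModularForm.E₆ τ = -11 * X τ ^ 6 - 42 * X τ ^ 5 * Y τ -
    18 * X τ ^ 4 * Y τ ^ 2 + 56 * X τ ^ 3 * Y τ ^ 3 + 48 * X τ ^ 2 * Y τ ^ 4 - 32 * Y τ ^ 6 := by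
  have hX := isMF_X
  have hY := isMF_Y
  have h1 : IsMF (Gamma1 6) ((6 : ℕ) : ℤ) ((ModularForm.E₆ : ℍ → ℂ) +
      (11 : ℂ) • (((((X * X) * X) * X) * X) * X) + (42 : ℂ) • (((((X * X) * X) * X) * X) * Y)
      + (18 : ℂ) • ((((X * X) * X) * X) * (Y * Y)) - (56 : ℂ) • (((X * X) * X) * ((Y * Y) * Y))
      - (48 : ℂ) • ((X * X) * (((Y * Y) * Y) * Y)) + (32 : ℂ) • (((Y * Y) * Y) * ((Y * Y) * Y))) := by
    refine (((((isMF_E6.add ?_).add ?_).add ?_).sub ?_).sub ?_).add ?_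
    · exact cast_w ((((((hX.mul hX).mul hX).mul hX).mul hX).mul hX).smul 11) (by norm_num)
    · exact cast_w ((((((hX.mul hX).mul hX).mul hX).mul hX).mul hY).smul 42) (by norm_num)
    · exact cast_w (((((hX.mul hX).mul hX).mul hX).mul (hY.mul hY)).smul 18) (by norm_num)
    · exact cast_w ((((hX.mul hX).mul hX).mul ((hY.mul hY).mul hY)).smul 56) (by norm_num)
    · exact cast_w (((hX.mul hX).mul (((hY.mul hY).mul hY).mul hY)).smul 48) (by norm_num)
    · exact cast_w ((((hY.mul hY).mul hY).mul ((hY.mul hY).mul hY)).smul 32) (by norm_num)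
  have h2 := (((((QE_E6.add
    ((((((QE_X.mul QE_X).mul QE_X).mul QE_X).mul QE_X).mul QE_X).smul 11)).add
    ((((((QE_X.mul QE_X).mul QE_X).mul QE_X).mul QE_X).mul QE_Y).smul 42)).add
    (((((QE_X.mul QE_X).mul QE_X).mul QE_X).mul (QE_Y.mul QE_Y)).smul 18)).sub
    ((((QE_X.mul QE_X).mul QE_X).mul ((QE_Y.mul QE_Y).mul QE_Y)).smul 56)).sub
    (((QE_X.mul QE_X).mul (((QE_Y.mul QE_Y).mul QE_Y).mul QE_Y)).smul 48)).add
    ((((QE_Y.mul QE_Y).mul QE_Y).mul ((QE_Y.mul QE_Y).mul QE_Y)).smul 32)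
  have h3 := eq_zero_of h1 h2 (fun n hn => by
    have hn7 : n < 7 := by omega
    rw [map_add, map_sub, map_sub, map_add, map_add, map_add, PowerSeries.coeff_smul,
      PowerSeries.coeff_smul, PowerSeries.coeff_smul, PowerSeries.coeff_smul,
      PowerSeries.coeff_smul, PowerSeries.coeff_smul, isT_E6 n hn7, isT_X6 n hn7, isT_X5Y n hn7,
      isT_X4Y2 n hn7, isT_X3Y3 n hn7, isT_X2Y4 n hn7, isT_Y6 n hn7]
    interval_cases n <;> norm_num)
  have h4 := congrFun h3 τ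
  simp only [Pi.add_apply, Pi.sub_apply, Pi.smul_apply, Pi.mul_apply, smul_eq_mul,
    Pi.zero_apply] at h4
  linear_combination h4

/-- **`432 Δ = (X − Y)(X − 2Y)⁶(X + Y)³(X + 2Y)²`** -/
theorem idD (τ : ℍ) : 432 * ModularForm.discriminant τ =
    (X τ - Y τ) * (X τ - 2 * Y τ) ^ 6 * (X τ + Y τ) ^ 3 * (X τ + 2 * Y τ) ^ 2 := by
  rw [ModularForm.discriminant_eq_E₄_cube_sub_E₆_sq, id4, id6]
  ring

theorem fac_ne (τ : ℍ) : X τ - Y τ ≠ 0 ∧ X τ - 2 * Y τ ≠ 0 ∧ X τ + Y τ ≠ 0 ∧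
    X τ + 2 * Y τ ≠ 0 := by
  have h := ModularForm.discriminant_ne_zero τ
  have h2 := idD τ
  refine ⟨?_, ?_, ?_, ?_⟩ <;>
  · intro h3
    rw [h3] at h2
    simp at h2
    exact h h2

end Vale.Agent.P022.H494.L3
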