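import Vale.Agent.P022.H494.L3.Id
import Vale.Agent.P022.H218.L3.Gal

/-!
# P022-L3, function field, explicit half: the Hauptmodul `p = (X − Y) / (2 (X + 2Y))` of `Γ₀(6)`
-/

open UpperHalfPlane hiding I
open Matrix CongruenceSubgroup Complex Filter Polynomial
open scoped MatrixGroups ModularForm Manifold Real IntermediateField

noncomputable section

namespace Vale.Agent.P022.H494.L3

open Vale.Agent.P022 H218.L3

open Function.Periodic (qParam)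

/-! ### the law of `X`, `Y` under `Γ₀(6)` -/

/-- the factor `ε(d) (cτ + d)` -/
def jj (γ : SL(2, ℤ)) (τ : ℍ) : ℂ :=
  jacobiSym (γ 1 1) 3 * ((γ 1 0 : ℂ) * (τ : ℂ) + (γ 1 1 : ℂ))

theorem X_law {γ : SL(2, ℤ)} (h : γ ∈ Gamma0 6) (τ : ℍ) : X (γ • τ) = jj γ τ * X τ := by
  have h6 : (6 : ℤ) ∣ γ 1 0 := (ZMod.intCast_zmod_eq_zero_iff_dvd _ 6).1 (Gamma0_mem.1 h)
  exact θ_law γ τ (dvd_trans (by norm_num) h6)

theorem Y_law {γ : SL(2, ℤ)} (h : γ ∈ Gamma0 6) (τ : ℍ) : Y (γ • τ) = jj γ τ * Y τ := by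
  have h6 : (6 : ℤ) ∣ γ 1 0 := (ZMod.intCast_zmod_eq_zero_iff_dvd _ 6).1 (Gamma0_mem.1 h)
  obtain ⟨c, hc⟩ := h6
  have hdet : γ 0 0 * γ 1 1 - γ 0 1 * γ 1 0 = 1 := by
    have := γ.det_coe
    rwa [Matrix.det_fin_two] at this
  let δ : SL(2, ℤ) := ⟨!![γ 0 0, 2 * γ 0 1; 3 * c, γ 1 1], by
    rw [Matrix.det_fin_two]
    simp
    linear_combination hdet + γ 0 1 * hc⟩
  have e1 : dbl (γ • τ) = δ • dbl τ := by
    ext
    rw [UpperHalfPlane.coe_specialLinearGroup_apply]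
    have h2 : ((dbl (γ • τ) : ℍ) : ℂ) = 2 * ((γ • τ : ℍ) : ℂ) := rfl
    have h3 : ((dbl τ : ℍ) : ℂ) = 2 * (τ : ℂ) := rfl
    rw [h2, h3, UpperHalfPlane.coe_specialLinearGroup_apply]
    simp only [algebraMap_int_eq, eq_intCast, ofReal_intCast]
    have e00 : (δ 0 0 : ℤ) = γ 0 0 := rfl
    have e01 : (δ 0 1 : ℤ) = 2 * γ 0 1 := rfl
    have e10 : (δ 1 0 : ℤ) = 3 * c := rfl
    have e11 : (δ 1 1 : ℤ) = γ 1 1 := rfl
    rw [e00, e01, e10, e11, hc]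
    push_cast
    rw [← mul_div_assoc]
    congr 1 <;> ring
  have h4 := θ_law δ (dbl τ) ⟨c, rfl⟩
  unfold Y
  rw [e1, h4]
  unfold jj
  have e10 : (δ 1 0 : ℤ) = 3 * c := rfl
  have e11 : (δ 1 1 : ℤ) = γ 1 1 := rfl
  have h3 : ((dbl τ : ℍ) : ℂ) = 2 * (τ : ℂ) := rfl
  rw [e10, e11, h3, hc]
  push_cast
  ring

theorem jj_sq {γ : SL(2, ℤ)} (h : γ ∈ Gamma0 6) (τ : ℍ) :
    jj γ τ ^ 2 = ((γ 1 0 : ℂ) * (τ : ℂ) + (γ 1 1 : ℂ)) ^ 2 := by
  have h6 : (6 : ℤ) ∣ γ 1 0 := (ZMod.intCast_zmod_eq_zero_iff_dvd _ 6).1 (Gamma0_mem.1 h)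
  have hdet : γ 0 0 * γ 1 1 - γ 0 1 * γ 1 0 = 1 := by
    have := γ.det_coe
    rwa [Matrix.det_fin_two] at this
  have hcop : Int.gcd (γ 1 1) 3 = 1 := by
    rw [← Int.isCoprime_iff_gcd_eq_one]
    obtain ⟨c, hc⟩ := h6
    exact ⟨γ 0 0, -(γ 0 1 * (2 * c)), by linear_combination hdet + γ 0 1 * hc⟩
  have h1 : jacobiSym (γ 1 1) 3 ^ 2 = 1 := jacobiSym.sq_one (by exact_mod_cast hcop)
  have h2 : ((jacobiSym (γ 1 1) 3 : ℤ) : ℂ) ^ 2 = 1 := by exact_mod_cast h1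
  unfold jj
  rw [mul_pow, h2, one_mul]

/-- products of two linear forms in `X`, `Y` are forms of weight two on `Γ₀(6)` -/
theorem isMF_lin (a b c d : ℂ) :
    IsMF (Gamma0 6) 2 ((a • X + b • Y) * (c • X + d • Y)) := by
  have h1 : IsMF (Gamma1 6) 2 ((a • X + b • Y) * (c • X + d • Y)) :=
    cast_w ((((isMF_X.smul a).add (isMF_Y.smul b))).mul ((isMF_X.smul c).add (isMF_Y.smul d)))
      (by norm_num)
  refine ⟨h1.hol, fun γ hγ => ?_, h1.bdd⟩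
  funext τ
  rw [ModularForm.SL_slash_apply]
  simp only [Pi.mul_apply, Pi.add_apply, Pi.smul_apply, smul_eq_mul]
  rw [X_law hγ, Y_law hγ]
  have h2 : denom (γ : GL (Fin 2) ℝ) τ = (γ 1 0 : ℂ) * (τ : ℂ) + (γ 1 1 : ℂ) := by
    rw [ModularGroup.denom_apply]
  have h3 : (γ 1 0 : ℂ) * (τ : ℂ) + (γ 1 1 : ℂ) ≠ 0 := by
    rw [← h2]
    exact UpperHalfPlane.denom_ne_zero _ τ
  rw [h2, _root_.zpow_neg, zpow_ofNat, ← jj_sq hγ τ]
  have h4 : jj γ τ ^ 2 ≠ 0 := by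
    rw [jj_sq hγ τ]
    exact pow_ne_zero _ h3
  have h5 : jj γ τ ≠ 0 := fun h => h4 (by rw [h]; ring)
  field_simp


/-! ### the Hauptmodul -/

/-- `p = (X − Y) / (2 (X + 2Y))` as a function -/
def pf (τ : ℍ) : ℂ := (X τ - Y τ) / (2 * (X τ + 2 * Y τ))

theorem pf_mem : pf ∈ Hol := by
  have h1 : (X - Y) ∈ Hol := (isMF_X.sub isMF_Y).hol
  have h2 : ((2 : ℂ) • (X + (2 : ℂ) • Y)) ∈ Hol := ((isMF_X.add (isMF_Y.smul 2)).smul 2).hol
  exact MDifferentiable.div h1 h2 (fun τ => mul_ne_zero two_ne_zero (fac_ne τ).2.2.2)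

/-- the Hauptmodul in `Mer` -/
def pM : Mer := inc pf pf_mem

theorem pM_mem : pM ∈ H218.L3.MF (Gamma0 6) := by
  have h1 := isMF_lin 1 (-1) 1 2
  have h2 := (isMF_lin 1 2 1 2).smul 2
  have hne : ((2 : ℂ) • (((1 : ℂ) • X + (2 : ℂ) • Y) * ((1 : ℂ) • X + (2 : ℂ) • Y))) ≠ 0 := by
    intro h
    have h3 := congrFun h UpperHalfPlane.I
    simp only [Pi.smul_apply, Pi.mul_apply, Pi.add_apply, smul_eq_mul, Pi.zero_apply] at h3
    have h4 := (fac_ne UpperHalfPlane.I).2.2.2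
    rw [one_mul] at h3
    exact (mul_ne_zero two_ne_zero (mul_ne_zero h4 h4)) h3
  refine ⟨2, _, _, h1, h2, hne, ?_⟩
  rw [eq_div_iff (fun h => hne ((inc_eq_zero _).1 h)), pM, ← inc_mul]
  apply inc_congr
  funext τ
  simp only [Pi.smul_apply, Pi.mul_apply, Pi.add_apply, smul_eq_mul, pf]
  have h4 := (fac_ne τ).2.2.2
  have h5 : 1 * X τ + 2 * Y τ = X τ + 2 * Y τ := by ring
  rw [h5]
  field_simp
  try ring

theorem aeval_inc {f : ℍ → ℂ} (hf : f ∈ Hol) (P : ℂ[X]) :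
    ∃ h : (fun τ => P.eval (f τ)) ∈ Hol, aeval (inc f hf) P = inc (fun τ => P.eval (f τ)) h := by
  have e : ((aeval (⟨f, hf⟩ : Hol) P : Hol) : ℍ → ℂ) = fun τ => P.eval (f τ) := by
    funext τ
    have h1 : (aeval (⟨f, hf⟩ : Hol) P : Hol).1 τ =
        ((Pi.evalAlgHom ℂ (fun _ : ℍ => ℂ) τ).comp Hol.val) (aeval (⟨f, hf⟩ : Hol) P) := rfl
    rw [h1, ← Polynomial.aeval_algHom_apply]
    simp [Polynomial.aeval_def, Polynomial.eval₂_eq_eval_map]
  have h : (fun τ => P.eval (f τ)) ∈ Hol := by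
    rw [← e]
    exact (aeval (⟨f, hf⟩ : Hol) P : Hol).2
  refine ⟨h, ?_⟩
  have h2 : aeval (inc f hf) P = algebraMap Hol Mer (aeval (⟨f, hf⟩ : Hol) P) := by
    unfold inc
    rw [Polynomial.aeval_algebraMap_apply]
  rw [h2]
  unfold inc
  congr 1
  exact Subtype.ext e

/-- the variable -/
abbrev T : ℂ[X] := Polynomial.X

/-- the quartic `1 + 232 T + 960 T² + 256 T³ + 256 T⁴` -/
def qA : ℂ[X] := 256 * T ^ 4 + 256 * T ^ 3 + 960 * T ^ 2 + 232 * T + 1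

/-- numerator of `j = N(p) / D(p)` -/
def qN : ℂ[X] := qA ^ 3

/-- denominator of `j = N(p) / D(p)` -/
def qD : ℂ[X] := T * (8 * T - 1) ^ 6 * (T + 1) ^ 3

theorem XY_of (τ : ℍ) : X τ = (X τ + 2 * Y τ) * (1 + 4 * pf τ) / 3 ∧
    Y τ = (X τ + 2 * Y τ) * (1 - 2 * pf τ) / 3 := by
  have h4 := (fac_ne τ).2.2.2
  have hp : 2 * pf τ * (X τ + 2 * Y τ) = X τ - Y τ := by
    unfold pf
    field_simp
  constructor
  · linear_combination (-(2 / 3 : ℂ)) * hp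
  · linear_combination (1 / 3 : ℂ) * hp

theorem jf_eq (τ : ℍ) : jf τ * qD.eval (pf τ) = qN.eval (pf τ) := by
  obtain ⟨hX, hY⟩ := XY_of τ
  set u := X τ + 2 * Y τ with hu
  set p := pf τ with hp
  have hD := ModularForm.discriminant_ne_zero τ
  have hE : ModularForm.E₄ τ = u ^ 4 / 81 * qA.eval p := by
    rw [id4]
    simp only [qA, T, eval_mul, eval_pow, eval_X, eval_add, eval_one, eval_ofNat]
    generalize hx : X τ = x at *
    generalize hy : Y τ = y at *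
    rw [hX, hY]
    ring
  have hDe : ModularForm.discriminant τ = u ^ 12 / 531441 * qD.eval p := by
    have h := idD τ
    have e1 : X τ - Y τ = 2 * p * u := by linear_combination hX - hY
    have e2 : X τ - 2 * Y τ = u * (8 * p - 1) / 3 := by linear_combination hX - 2 * hY
    have e3 : X τ + Y τ = 2 * u * (p + 1) / 3 := by linear_combination hX + hY
    rw [e1, e2, e3, ← hu] at h
    simp only [qD, T, eval_mul, eval_pow, eval_X, eval_add, eval_sub, eval_one, eval_ofNat]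
    linear_combination h / 432
  have h81 : (u : ℂ) ≠ 0 := (fac_ne τ).2.2.2
  unfold jf
  rw [div_mul_eq_mul_div, div_eq_iff hD, hDe, hE, qN, eval_pow]
  ring

theorem cop : IsCoprime qN qD := by
  have h729 : (C (1 / 729 : ℂ)) * 729 = 1 := by
    rw [← C_ofNat, ← C_mul]; norm_num
  have h1 : IsCoprime qA T :=
    ⟨1, -(256 * T ^ 3 + 256 * T ^ 2 + 960 * T + 232), by unfold qA; ring⟩
  have h2 : IsCoprime qA (T + 1) :=
    ⟨C (1 / 729), -(C (1 / 729) * (256 * T ^ 3 + 960 * T - 728)), by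
      unfold qA
      linear_combination h729⟩
  have h3 : IsCoprime qA (8 * T - 1) :=
    ⟨16 * C (1 / 729), -(C (1 / 729) * (512 * T ^ 3 + 576 * T ^ 2 + 1992 * T + 713)), by
      unfold qA
      linear_combination h729⟩
  unfold qN qD
  exact IsCoprime.pow_left (IsCoprime.mul_right (IsCoprime.mul_right h1 h3.pow_right) h2.pow_right)

theorem deg_qN : qN.natDegree = 12 := by
  have h : qA.natDegree = 4 := by
    unfold qA T
    compute_degree!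
  rw [qN, natDegree_pow, h]

/-- **`MF Γ₀(6) = ℂ(p)`** -/
theorem MF_Gamma0_six : H218.L3.MF (Gamma0 6) = ℂ⟮pM⟯ := by
  have hfi : (Gamma0 6).FiniteIndex := inferInstance
  refine MF_eq_adjoin (Gamma0 6) pM_mem cop ?_ ?_
  · obtain ⟨h1, e1⟩ := aeval_inc pf_mem qD
    obtain ⟨h2, e2⟩ := aeval_inc pf_mem qN
    have e1' : aeval pM qD = inc (fun τ => qD.eval (pf τ)) h1 := e1
    have e2' : aeval pM qN = inc (fun τ => qN.eval (pf τ)) h2 := e2
    rw [e1', e2', jM, ← inc_mul]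
    apply inc_congr
    funext τ
    exact jf_eq τ
  · rw [deg_qN]
    exact (index_Gamma0_six).trans (le_max_left _ _)

end Vale.Agent.P022.H494.L3
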