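import Mathlib

/-!
# P022-L3, function field, explicit half: the Sturm bound for `Γ₁(6)`

A modular form of weight `k` for `Γ₁(6)` whose `q`-coefficients of index `≤ k` vanish is zero
(norm to level one, Sturm bound there).
-/

open UpperHalfPlane Matrix CongruenceSubgroup Filter Asymptotics
open scoped MatrixGroups ModularForm Manifold Real Topology

noncomputable section

namespace Vale.Agent.P022.H494.L3

open Function.Periodic (qParam)

/-! ### the index of `Γ₁(6)` -/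

/-- the possible first columns modulo six -/
abbrev Col : Type := {v : ZMod 6 × ZMod 6 // ∃ b d : ZMod 6, v.1 * d - b * v.2 = 1}

theorem card_Col : Fintype.card Col = 24 := by decide

theorem mem_G6 (g : SL(2, ℤ)) :
    g ∈ Gamma1 6 ↔ ((g 0 0 : ℤ) : ZMod 6) = 1 ∧ ((g 1 0 : ℤ) : ZMod 6) = 0 := by
  rw [Gamma1_mem]
  refine ⟨fun h => ⟨h.1, h.2.2⟩, fun h => ⟨h.1, ?_, h.2⟩⟩
  have hd := g.det_coe
  rw [Matrix.det_fin_two] at hd
  have h1 := congrArg (Int.cast : ℤ → ZMod 6) hd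
  push_cast at h1
  rw [h.1, h.2] at h1
  simpa using h1

/-- first column modulo six -/
def col (g : SL(2, ℤ)) : Col :=
  ⟨(((g 0 0 : ℤ) : ZMod 6), ((g 1 0 : ℤ) : ZMod 6)), ((g 0 1 : ℤ) : ZMod 6), ((g 1 1 : ℤ) : ZMod 6), by
    have hd := g.det_coe
    rw [Matrix.det_fin_two] at hd
    have h1 := congrArg (Int.cast : ℤ → ZMod 6) hd
    push_cast at h1
    exact h1⟩

theorem col_eq_iff (g h : SL(2, ℤ)) : col g = col h ↔ g⁻¹ * h ∈ Gamma1 6 := by
  rw [mem_G6]
  have e00 : ((g⁻¹ * h) 0 0 : ℤ) = g 1 1 * h 0 0 - g 0 1 * h 1 0 := by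
    rw [Matrix.SpecialLinearGroup.coe_mul, Matrix.SpecialLinearGroup.coe_inv,
      Matrix.adjugate_fin_two, Matrix.mul_apply, Fin.sum_univ_two]
    simp
    ring
  have e10 : ((g⁻¹ * h) 1 0 : ℤ) = g 0 0 * h 1 0 - g 1 0 * h 0 0 := by
    rw [Matrix.SpecialLinearGroup.coe_mul, Matrix.SpecialLinearGroup.coe_inv,
      Matrix.adjugate_fin_two, Matrix.mul_apply, Fin.sum_univ_two]
    simp
    ring
  rw [e00, e10]
  push_cast
  have hd := g.det_coe
  rw [Matrix.det_fin_two] at hd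
  have h1 := congrArg (Int.cast : ℤ → ZMod 6) hd
  push_cast at h1
  have h3 : col g = col h ↔ (((g 0 0 : ℤ) : ZMod 6) = ((h 0 0 : ℤ) : ZMod 6) ∧
      ((g 1 0 : ℤ) : ZMod 6) = ((h 1 0 : ℤ) : ZMod 6)) := by
    unfold col
    simp only [Subtype.mk.injEq, Prod.mk.injEq]
  rw [h3]
  constructor
  · rintro ⟨ha, hc⟩
    constructor
    · rw [← ha, ← hc]
      linear_combination h1
    · rw [← ha, ← hc]
      ring
  · rintro ⟨ha, hc⟩
    constructor
    · linear_combination (-((g 0 0 : ℤ) : ZMod 6)) * ha - ((g 0 1 : ℤ) : ZMod 6) * hc +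
        ((h 0 0 : ℤ) : ZMod 6) * h1
    · linear_combination (-((g 1 0 : ℤ) : ZMod 6)) * ha - ((g 1 1 : ℤ) : ZMod 6) * hc +
        ((h 1 0 : ℤ) : ZMod 6) * h1


theorem index_le : (Gamma1 6).index ≤ 24 := by
  have h1 : (Gamma1 6).index = Nat.card (SL(2, ℤ) ⧸ Gamma1 6) := rfl
  rw [h1]
  let φ : SL(2, ℤ) ⧸ Gamma1 6 → Col := Quotient.lift col (fun a b hab => by
    rw [col_eq_iff]
    exact QuotientGroup.leftRel_apply.1 hab)
  have hφ : Function.Injective φ := by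
    intro x y
    induction x using QuotientGroup.induction_on with | _ x =>
    induction y using QuotientGroup.induction_on with | _ y =>
    intro h
    rw [QuotientGroup.eq]
    exact (col_eq_iff x y).1 h
  have h2 := Nat.card_le_card_of_injective φ hφ
  rwa [Nat.card_eq_fintype_card (α := Col), card_Col] at h2

/-- `Γ₁(6)` in `GL₂(ℝ)` -/
abbrev G6 : Subgroup (GL (Fin 2) ℝ) := ((Gamma1 6 : Subgroup SL(2, ℤ)) : Subgroup (GL (Fin 2) ℝ))

theorem card_quot_le : Nat.card (𝒮ℒ ⧸ G6.subgroupOf 𝒮ℒ) ≤ 24 := by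
  have h1 : Nat.card (𝒮ℒ ⧸ G6.subgroupOf 𝒮ℒ) = G6.relIndex 𝒮ℒ := rfl
  rw [h1]
  have h2 : (𝒮ℒ : Subgroup (GL (Fin 2) ℝ)) = (⊤ : Subgroup SL(2, ℤ)).map
      (Matrix.SpecialLinearGroup.mapGL ℝ) := MonoidHom.range_eq_map _
  have h3 : G6.relIndex 𝒮ℒ = (Gamma1 6).relIndex ⊤ := by
    rw [h2]
    exact Subgroup.relIndex_map_map_of_injective _ _ Matrix.SpecialLinearGroup.mapGL_injective
  rw [h3, Subgroup.relIndex_top_right]
  exact index_le

/-! ### decay at infinity and coefficients -/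

/-- all coefficients below `n` vanish: decay of order `n` -/
theorem decay_of_coeff {f : ℍ → ℂ} {c : ℕ → ℂ}
    (hf : ∀ τ : ℍ, HasSum (fun m ↦ c m • qParam 1 τ ^ m) (f τ)) {n : ℕ} (hc : ∀ m < n, c m = 0) :
    f =O[atImInfty] fun τ : ℍ => qParam 1 τ ^ n := by
  have h0 : ∀ τ : ℍ, qParam 1 (τ : ℂ) ≠ 0 := fun τ => Function.Periodic.qParam_ne_zero _
  have h1 : ∀ τ : ℍ, HasSum (fun m ↦ c (m + n) • qParam 1 τ ^ m) (f τ / qParam 1 τ ^ n) := by
    intro τ
    have h2 := (hasSum_nat_add_iff' n).2 (hf τ)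
    rw [Finset.sum_eq_zero (fun i hi => by rw [hc i (Finset.mem_range.1 hi), zero_smul]),
      sub_zero] at h2
    have h3 := h2.div_const (qParam 1 (τ : ℂ) ^ n)
    convert! h3 using 2 with m
    rw [smul_eq_mul, smul_eq_mul, pow_add, mul_div_assoc, mul_div_assoc,
      div_self (pow_ne_zero _ (h0 τ)), mul_one]
  have h2 := isBoundedAtImInfty_of_hasSum_qExpansion one_pos h1
  have h3 : (fun τ : ℍ => f τ / qParam 1 τ ^ n * qParam 1 τ ^ n) =O[atImInfty]
      fun τ : ℍ => (1 : ℝ) * ‖qParam 1 (τ : ℂ) ^ n‖ :=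
    IsBigO.mul h2 ((isBigO_refl _ _).norm_right)
  have h4 : (fun τ : ℍ => f τ / qParam 1 τ ^ n * qParam 1 τ ^ n) = f := by
    funext τ
    exact div_mul_cancel₀ _ (pow_ne_zero _ (h0 τ))
  rw [h4] at h3
  simp only [one_mul] at h3
  exact h3.of_norm_right


/-- decay of order `n`: all coefficients below `n` vanish -/
theorem coeff_of_decay {F : ℍ → ℂ} (hper : Function.Periodic (F ∘ ofComplex) (1 : ℝ))
    (hhol : MDiff F) {n : ℕ} (hF : F =O[atImInfty] fun τ : ℍ => qParam 1 τ ^ n) {m : ℕ} (hm : m < n) :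
    (qExpansion 1 F).coeff m = 0 := by
  have h0 : ∀ τ : ℍ, qParam 1 (τ : ℂ) ≠ 0 := fun τ => Function.Periodic.qParam_ne_zero _
  have hqb : (fun τ : ℍ => qParam 1 (τ : ℂ) ^ n) =O[atImInfty] fun _ : ℍ => (1 : ℝ) := by
    refine IsBigO.of_bound 1 (Eventually.of_forall fun τ => ?_)
    rw [norm_pow, norm_one, mul_one]
    exact pow_le_one₀ (norm_nonneg _) (Function.Periodic.norm_qParam_lt_one one_pos τ.im_pos).le
  set G : ℍ → ℂ := fun τ => F τ / qParam 1 τ ^ n with hG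
  have hGb : IsBoundedAtImInfty G := by
    have h1 : G =O[atImInfty] fun τ : ℍ => qParam 1 (τ : ℂ) ^ n / qParam 1 (τ : ℂ) ^ n := by
      have := hF.mul (isBigO_refl (fun τ : ℍ => (qParam 1 (τ : ℂ) ^ n)⁻¹) atImInfty)
      simpa only [hG, div_eq_mul_inv] using this
    refine h1.trans ?_
    refine IsBigO.of_bound 1 (Eventually.of_forall fun τ => ?_)
    rw [div_self (pow_ne_zero _ (h0 τ))]
    simp
  have hGper : Function.Periodic (G ∘ ofComplex) (1 : ℝ) := by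
    intro w
    by_cases! hw : 0 < w.im
    · have hw' : 0 < (w + (1 : ℝ)).im := by simp [hw]
      have h1 := hper w
      simp only [Function.comp_apply, ofComplex_apply_of_im_pos hw',
        ofComplex_apply_of_im_pos hw] at h1 ⊢
      simp only [hG]
      rw [h1]
      congr 2
      rw [Function.Periodic.qParam, Function.Periodic.qParam, Complex.exp_eq_exp_iff_exists_int]
      refine ⟨1, ?_⟩
      push_cast
      ring
    · have h2 : (w + (1 : ℝ)).im ≤ 0 := by simpa using hw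
      rw [Function.comp_apply, Function.comp_apply, ofComplex_apply_of_im_nonpos h2,
        ofComplex_apply_of_im_nonpos hw]
  have hGhol : MDiff G := by
    rw [UpperHalfPlane.mdifferentiable_iff] at hhol ⊢
    have h1 : DifferentiableOn ℂ (fun z : ℂ => (F ∘ ofComplex) z / qParam 1 z ^ n)
        {z | 0 < z.im} := by
      refine hhol.div (fun z _ => ?_) (fun z _ => pow_ne_zero _
        (Function.Periodic.qParam_ne_zero _))
      exact ((Function.Periodic.differentiable_qParam z).pow n).differentiableWithinAt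
    refine h1.congr ?_
    intro z hz
    simp [hG, Function.comp_apply, ofComplex_apply_of_im_pos hz]
  have h1 := hasSum_qExpansion one_pos hGper hGhol hGb
  have hFb : IsBoundedAtImInfty F := hF.trans hqb
  have h2 : ∀ τ : ℍ, HasSum (fun k : ℕ => (if n ≤ k then (qExpansion 1 G).coeff (k - n) else 0) •
      qParam 1 τ ^ k) (F τ) := by
    intro τ
    have h3 := (h1 τ).mul_left (qParam 1 (τ : ℂ) ^ n)
    have h4 : qParam 1 (τ : ℂ) ^ n * G τ = F τ := by
      simp only [hG]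
      exact mul_div_cancel₀ _ (pow_ne_zero _ (h0 τ))
    rw [h4] at h3
    rw [← hasSum_nat_add_iff' n, Finset.sum_eq_zero (fun i hi => by
      rw [if_neg (not_le.2 (Finset.mem_range.1 hi)), zero_smul]), sub_zero]
    convert! h3 using 2 with k
    rw [if_pos (Nat.le_add_left n k), Nat.add_sub_cancel, smul_eq_mul, smul_eq_mul, pow_add]
    ring
  have han := analyticAt_cuspFunction_zero one_pos hper hhol hFb
  have h5 := (hasFPowerSeriesOnBall_cuspFunction one_pos han h2).hasFPowerSeriesAt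
  have h6 := (hasFPowerSeriesOnBall_cuspFunction one_pos han
    (hasSum_qExpansion one_pos hper hhol hFb)).hasFPowerSeriesAt
  have h7 := congr_arg (FormalMultilinearSeries.coeff · m) (h5.eq_formalMultilinearSeries h6)
  simp only [FormalMultilinearSeries.coeff_ofScalars] at h7
  rw [← h7, if_neg (not_le.2 hm)]


/-! ### the Sturm bound -/

theorem neg_one_smul' (τ : ℍ) : (-1 : GL (Fin 2) ℝ) • τ = τ := by
  ext
  rw [UpperHalfPlane.coe_smul_of_det_pos]
  · simp [num, denom]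
  · simp [Matrix.det_fin_two]

theorem norm_slash_neg (f : ℍ → ℂ) (k : ℤ) (τ : ℍ) :
    ‖(f ∣[k] (-1 : GL (Fin 2) ℝ)) τ‖ = ‖f τ‖ := by
  rw [ModularForm.slash_apply, neg_one_smul']
  simp [denom, σ, Matrix.det_fin_two]

theorem neg_one_not_mem : (-1 : GL (Fin 2) ℝ) ∉ G6 := by
  rintro ⟨γ, hγ, h⟩
  have h1 := (mem_G6 γ).1 hγ
  have h2 : ((Matrix.SpecialLinearGroup.mapGL ℝ γ : GL (Fin 2) ℝ) : Matrix (Fin 2) (Fin 2) ℝ) 0 0
      = ((γ 0 0 : ℤ) : ℝ) := by
    simp [Matrix.SpecialLinearGroup.mapGL_coe_matrix]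
  rw [h] at h2
  have h3 : ((γ 0 0 : ℤ) : ℝ) = -1 := by rw [← h2]; simp
  have h4 : (γ 0 0 : ℤ) = -1 := by exact_mod_cast h3
  rw [h4] at h1
  exact absurd h1.1 (by decide)

theorem neg_one_mem_SL : (-1 : GL (Fin 2) ℝ) ∈ 𝒮ℒ := by
  refine ⟨-1, ?_⟩
  apply Units.ext
  rw [Matrix.SpecialLinearGroup.mapGL_coe_matrix]
  ext i j
  fin_cases i <;> fin_cases j <;> simp

/-- **Sturm bound for `Γ₁(6)`**: if all `q`-coefficients of index `≤ k` vanish, the form is zero -/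
theorem sturm6 {k : ℕ} (f : ModularForm G6 (k : ℤ)) {c : ℕ → ℂ}
    (hf : ∀ τ : ℍ, HasSum (fun m ↦ c m • qParam 1 τ ^ m) (f τ)) (hc : ∀ m ≤ k, c m = 0) : f = 0 := by
  classical
  have hdec := decay_of_coeff hf (n := k + 1) (fun m hm => hc m (Nat.lt_succ_iff.1 hm))
  suffices hF : ModularForm.norm 𝒮ℒ f = 0 by
    have := (ModularForm.norm_eq_zero_iff 𝒮ℒ (f := f)).1 hF
    exact DFunLike.coe_injective this
  let := Fintype.ofFinite (𝒮ℒ ⧸ G6.subgroupOf 𝒮ℒ)
  set q1 : 𝒮ℒ ⧸ G6.subgroupOf 𝒮ℒ := ⟦1⟧ with hq1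
  set q2 : 𝒮ℒ ⧸ G6.subgroupOf 𝒮ℒ := ⟦⟨-1, neg_one_mem_SL⟩⟧ with hq2
  have hne : q1 ≠ q2 := by
    intro h
    rw [hq1, hq2, Quotient.eq, QuotientGroup.leftRel_apply] at h
    rw [Subgroup.mem_subgroupOf] at h
    refine neg_one_not_mem ?_
    have e : (((1 : 𝒮ℒ)⁻¹ * ⟨-1, neg_one_mem_SL⟩ : 𝒮ℒ) : GL (Fin 2) ℝ) = -1 := by simp
    rwa [e] at h
  have hprod : (fun τ : ℍ => ∏ q : 𝒮ℒ ⧸ G6.subgroupOf 𝒮ℒ, SlashInvariantForm.quotientFunc f q τ)
      =O[atImInfty] fun τ : ℍ => ∏ q : 𝒮ℒ ⧸ G6.subgroupOf 𝒮ℒ,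
        if q = q1 ∨ q = q2 then qParam 1 (τ : ℂ) ^ (k + 1) else 1 := by
    refine IsBigO.finsetProd fun q _ => ?_
    by_cases h : q = q1 ∨ q = q2
    · simp only [h, if_true]
      rcases h with rfl | rfl
      · have : SlashInvariantForm.quotientFunc f q1 = (f : ℍ → ℂ) := by
          rw [hq1, SlashInvariantForm.quotientFunc_mk]
          simp
        rw [this]
        exact hdec
      · have : SlashInvariantForm.quotientFunc f q2 =
            (f : ℍ → ℂ) ∣[(k : ℤ)] (-1 : GL (Fin 2) ℝ)⁻¹ := by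
          rw [hq2, SlashInvariantForm.quotientFunc_mk]
        rw [this, inv_neg_one]
        refine IsBigO.of_norm_left ?_
        simp only [norm_slash_neg]
        exact hdec.norm_left
    · simp only [h, if_false]
      induction q using Quotient.inductionOn with | h r =>
      rw [SlashInvariantForm.quotientFunc_mk]
      obtain ⟨γ, hγ⟩ := r.2
      have h1 := ModularFormClass.bdd_at_infty_slash f γ⁻¹
      have h2 : (r.1⁻¹ : GL (Fin 2) ℝ) = ((γ⁻¹ : SL(2, ℤ)) : GL (Fin 2) ℝ) := by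
        rw [← hγ, ← map_inv]
        rfl
      rw [h2, ← ModularForm.SL_slash]
      have h3 : ((f : ℍ → ℂ) ∣[(k : ℤ)] γ⁻¹) =O[atImInfty] fun _ : ℍ => (1 : ℝ) := h1
      exact h3.trans (isBigO_refl _ _ |>.trans (IsBigO.of_bound 1 (by simp)))
  have hprod2 : (fun τ : ℍ => ∏ q : 𝒮ℒ ⧸ G6.subgroupOf 𝒮ℒ,
        if q = q1 ∨ q = q2 then qParam 1 (τ : ℂ) ^ (k + 1) else 1) =
      fun τ : ℍ => qParam 1 (τ : ℂ) ^ (2 * (k + 1)) := by
    funext τ
    rw [Finset.prod_ite, Finset.prod_const_one, mul_one, Finset.prod_const]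
    have : (Finset.univ.filter fun q : 𝒮ℒ ⧸ G6.subgroupOf 𝒮ℒ => q = q1 ∨ q = q2) = {q1, q2} := by
      ext q
      simp
    rw [this, Finset.card_pair hne, ← pow_mul]
    ring_nf
  rw [hprod2] at hprod
  have hcoe : (ModularForm.norm 𝒮ℒ f : ℍ → ℂ) =
      fun τ : ℍ => ∏ q : 𝒮ℒ ⧸ G6.subgroupOf 𝒮ℒ, SlashInvariantForm.quotientFunc f q τ := by
    rw [ModularForm.coe_norm]
    funext τ
    rw [Finset.prod_apply]
  apply ModularForm.sturm_bound_levelOne
  have hord : ((2 * (k + 1) : ℕ) : ℕ∞) ≤ (qExpansion 1 (ModularForm.norm 𝒮ℒ f)).order := by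
    refine PowerSeries.nat_le_order _ _ fun i hi => ?_
    refine coeff_of_decay (SlashInvariantFormClass.periodic_comp_ofComplex
      (ModularForm.norm 𝒮ℒ f) one_mem_strictPeriods_SL) (ModularForm.norm 𝒮ℒ f).holo' ?_ hi
    rw [hcoe]
    exact hprod
  refine lt_of_lt_of_le ?_ hord
  have hcard := card_quot_le
  have h1 : ((k : ℤ) * (Nat.card (𝒮ℒ ⧸ G6.subgroupOf 𝒮ℒ) : ℤ)).toNat =
      k * Nat.card (𝒮ℒ ⧸ G6.subgroupOf 𝒮ℒ) := by
    rw [← Nat.cast_mul, Int.toNat_natCast]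
  rw [h1]
  have h2 : k * Nat.card (𝒮ℒ ⧸ G6.subgroupOf 𝒮ℒ) / 12 < 2 * (k + 1) := by
    have : k * Nat.card (𝒮ℒ ⧸ G6.subgroupOf 𝒮ℒ) ≤ k * 24 := Nat.mul_le_mul_left k hcard
    omega
  exact_mod_cast h2

end Vale.Agent.P022.H494.L3
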